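import Vale.Agent.P216.H609.TotInd

/-!
# Localisation: counting

`T ≤ A ≤ S` stable.  `S / T`: the space, `S / A`: the fixed set (trivial action), `A / T`: the
pair.  If every equivariant class of `A / T` is killed by a power of `u` and `H (S / A)` is finite
dimensional, then `F (S / T) → F (S / A)` is onto in high degrees.
-/

namespace Vale.Agent.P216.H609

open Vale.Agent.P216.AS Finset Module

variable {k : Type} [Field k] {C : Amb k} {G : GCx C}

theorem TotS_le {S T : Sub C} {hS : G.Stable S} {hT : G.Stable T} (h : T ≤ S) :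
    G.TotS T hT ≤ G.TotS S hS := fun _ _ hx => ⟨fun q hq => h q (hx.1 q hq), hx.2⟩

/-- iterated periodicity -/
def umap (G : GCx C) (S T : Sub C) (hS : G.Stable S) (hT : G.Stable T) (n m : ℕ) :
    H (G.TotS S hS) (G.TotS T hT) n →ₗ[k] H (G.TotS S hS) (G.TotS T hT) (n + 2 * m) :=
  H.gmap (LinearMap.id : (∀ q, C.K q) →ₗ[k] (∀ q, C.K q))
    (by
      intro c hc
      obtain ⟨h1, h2⟩ := mem_Zc.mp hc
      refine mem_Zc.mpr ⟨GCx.Pair.TS_mono (by omega) h1, ?_⟩
      change G.D (n + 2 * m) c ∈ _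
      rw [Dadd]
      exact GCx.Pair.TS_mono (by omega) h2)
    (by
      intro c hc hcB
      cases n with
      | zero =>
        have h1 := mem_Bc_zero.mp hcB
        exact T_le_Bc _ _ _ (GCx.Pair.TS_mono (by omega) h1)
      | succ n =>
        obtain ⟨y, hy, hyc⟩ := mem_Bc_succ.mp hcB
        rw [show n + 1 + 2 * m = n + 2 * m + 1 by ring]
        refine mem_Bc_succ.mpr ⟨y, GCx.Pair.TS_mono (by omega) hy, ?_⟩
        change c - G.D (n + 2 * m) y ∈ _
        rw [Dadd]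
        exact GCx.Pair.TS_mono (by omega) hyc)

theorem umap_aux {S T : Sub C} {hS : G.Stable S} {hT : G.Stable T} (n m : ℕ) {c : ∀ q, C.K q}
    (hc : c ∈ Zc (G.TotS S hS) (G.TotS T hT) n) :
    c ∈ Zc (G.TotS S hS) (G.TotS T hT) (n + 2 * m) := by
  obtain ⟨h1, h2⟩ := mem_Zc.mp hc
  refine mem_Zc.mpr ⟨GCx.Pair.TS_mono (by omega) h1, ?_⟩
  change G.D (n + 2 * m) c ∈ _
  rw [Dadd]
  exact GCx.Pair.TS_mono (by omega) h2

theorem umap_mk {S T : Sub C} {hS : G.Stable S} {hT : G.Stable T} (n m : ℕ) {c : ∀ q, C.K q}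
    (hc : c ∈ Zc (G.TotS S hS) (G.TotS T hT) n) :
    umap G S T hS hT n m (H.mk c hc) = H.mk (C := G.Tot) c (umap_aux n m hc) := rfl

section Triv

variable {S A : Sub C} {hS : G.Stable S} {hA : G.Stable A}

/-- the action on `S / A` is trivial and the norm is zero -/
structure Triv (G : GCx C) (S A : Sub C) : Prop where
  g_sub : ∀ n, ∀ x ∈ S n, x - G.g n x ∈ A n
  nm_mem : ∀ n, ∀ x ∈ S n, G.nm n x ∈ A n

theorem Triv.θ (h : Triv G S A) (i n : ℕ) {x : C.K n} (hx : x ∈ S n) : G.θ i n x ∈ A n := by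
  rcases Nat.mod_two_eq_zero_or_one i with h1 | h1
  · rw [GCx.θ_even _ h1]; exact h.nm_mem n x hx
  · rw [GCx.θ_odd _ h1]; exact h.g_sub n x hx

theorem memS {n : ℕ} {c : ∀ q, C.K q} (hc : c ∈ (G.TotS S hS).S n) (q : ℕ) : c q ∈ S q := by
  rcases Nat.lt_or_ge n q with h | h
  · rw [hc.2 q h]; exact Submodule.zero_mem _
  · exact hc.1 q h

/-- components of a cocycle -/
theorem Triv.comp_Zc (h : Triv G S A) {n : ℕ} {c : ∀ q, C.K q}
    (hc : c ∈ Zc (G.TotS S hS) (G.TotS A hA) n) (q : ℕ) : c q ∈ Zc S A q := by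
  obtain ⟨h1, h2⟩ := mem_Zc.1 hc
  refine mem_Zc.2 ⟨memS h1 q, ?_⟩
  have h3 := memS h2 (q + 1)
  change G.D n c (q + 1) ∈ _ at h3
  rw [GCx.D_succ] at h3
  have h4 := Submodule.sub_mem _ h3 (Submodule.smul_mem _ ((-1 : k) ^ (q + 1))
    (h.θ (n + 1 + (q + 1)) (q + 1) (memS h1 (q + 1))))
  rwa [add_sub_cancel_right] at h4

/-- a sequence of cocycles is a cocycle -/
theorem Triv.Zc_of_comp (h : Triv G S A) {n : ℕ} {c : ∀ q, C.K q}
    (hc : ∀ q ≤ n, c q ∈ Zc S A q) (h0 : ∀ q, n < q → c q = 0) :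
    c ∈ Zc (G.TotS S hS) (G.TotS A hA) n := by
  have h1 : c ∈ (G.TotS S hS).S n := ⟨fun q hq => (hc q hq).1, h0⟩
  refine mem_Zc.2 ⟨h1, fun q hq => ?_, ((G.TotS S hS).d_mem h1).2⟩
  change G.D n c q ∈ _
  cases q with
  | zero => exact h.θ _ _ (memS h1 0)
  | succ q =>
    rw [GCx.D_succ]
    exact Submodule.add_mem _ (hc q (by omega)).2
      (Submodule.smul_mem _ _ (h.θ _ _ (memS h1 (q + 1))))

theorem Triv.comp_Bc (h : Triv G S A) {n : ℕ} {c : ∀ q, C.K q}
    (hc : c ∈ Bc (G.TotS S hS) (G.TotS A hA) n) (q : ℕ) : c q ∈ Bc S A q := by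
  obtain ⟨t, ht, w, hw, rfl⟩ := mem_Bc.1 hc
  refine Submodule.add_mem _ (T_le_Bc _ _ _ (memS ht q)) ?_
  cases n with
  | zero =>
    rw [mem_im_zero.1 hw]
    exact Submodule.zero_mem _
  | succ n =>
    obtain ⟨y, hy, rfl⟩ := mem_im_succ.1 hw
    change G.D n y q ∈ _
    cases q with
    | zero => exact T_le_Bc _ _ _ (h.θ _ _ (memS hy 0))
    | succ q =>
      rw [GCx.D_succ]
      exact Submodule.add_mem _ (d_mem_Bc (memS hy q))
        (T_le_Bc _ _ _ (Submodule.smul_mem _ _ (h.θ _ _ (memS hy (q + 1)))))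

theorem Triv.Bc_of_comp (h : Triv G S A) {n : ℕ} {c : ∀ q, C.K q}
    (hc : ∀ q ≤ n, c q ∈ Bc S A q) (h0 : ∀ q, n < q → c q = 0) :
    c ∈ Bc (G.TotS S hS) (G.TotS A hA) n := by
  cases n with
  | zero =>
    refine T_le_Bc _ _ _ ⟨fun q hq => ?_, h0⟩
    obtain rfl : q = 0 := by omega
    exact mem_Bc_zero.1 (hc 0 le_rfl)
  | succ n =>
    have h1 : ∀ q, ∃ y : C.K q, y ∈ S q ∧ (q ≤ n → c (q + 1) - C.d q y ∈ A (q + 1)) := by
      intro q
      by_cases hq : q ≤ n
      · obtain ⟨y, hy, h2⟩ := mem_Bc_succ.1 (hc (q + 1) (by omega))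
        exact ⟨y, hy, fun _ => h2⟩
      · exact ⟨0, Submodule.zero_mem _, fun h => absurd h hq⟩
    choose y hy h2 using h1
    let z : ∀ q, C.K q := fun q => if q ≤ n then y q else 0
    have hz : z ∈ (G.TotS S hS).S n := by
      refine ⟨fun q hq => ?_, fun q hq => if_neg (by omega)⟩
      change (if q ≤ n then y q else 0) ∈ _
      rw [if_pos hq]
      exact hy q
    refine mem_Bc_succ.2 ⟨z, hz, fun q hq => ?_, fun q hq => ?_⟩
    · change c q - G.D n z q ∈ _
      cases q with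
      | zero =>
        exact Submodule.sub_mem _ (mem_Bc_zero.1 (hc 0 (by omega))) (h.θ _ _ (memS hz 0))
      | succ q =>
        rw [GCx.D_succ, ← sub_sub]
        refine Submodule.sub_mem _ ?_ (Submodule.smul_mem _ _ (h.θ _ _ (memS hz (q + 1))))
        change c (q + 1) - C.d q (if q ≤ n then y q else 0) ∈ _
        rw [if_pos (by omega)]
        exact h2 q (by omega)
    · change c q - G.D n z q = 0
      rw [h0 q hq]
      have : G.D n z q = 0 := ((G.TotS S hS).d_mem hz).2 q hq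
      rw [this, sub_zero]

/-- the components map -/
def compMap (h : Triv G S A) (n : ℕ) :
    H (G.TotS S hS) (G.TotS A hA) n →ₗ[k] ∀ j : Fin (n + 1), H S A j :=
  LinearMap.pi fun j => H.gmap (LinearMap.proj (j : ℕ) : (∀ q, C.K q) →ₗ[k] C.K j)
    (fun _ hx => h.comp_Zc hx j) fun _ _ hx => h.comp_Bc hx j

theorem compMap_bijective (h : Triv G S A) (n : ℕ) :
    Function.Bijective (compMap (hS := hS) (hA := hA) h n) := by
  constructor
  · rw [injective_iff_map_eq_zero]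
    intro a ha
    obtain ⟨c, hc, rfl⟩ := H.exists_mk a
    rw [H.mk_eq_zero]
    refine h.Bc_of_comp (fun q hq => ?_) (mem_Zc.1 hc).1.2
    have h1 := congrFun ha ⟨q, by omega⟩
    exact H.mk_eq_zero.1 h1
  · intro b
    have h1 : ∀ j : Fin (n + 1), ∃ x, ∃ hx : x ∈ Zc S A j, H.mk x hx = b j :=
      fun j => H.exists_mk (b j)
    choose x hx hb using h1
    let c : ∀ q, C.K q := fun q => if hq : q < n + 1 then x ⟨q, hq⟩ else 0
    have hc1 : ∀ j : Fin (n + 1), c j = x j := fun j => dif_pos j.2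
    have hc : c ∈ Zc (G.TotS S hS) (G.TotS A hA) n :=
      h.Zc_of_comp (fun q hq => by
        have := hc1 ⟨q, by omega⟩
        change c q = _ at this
        rw [this]
        exact hx ⟨q, by omega⟩) fun q hq => dif_neg (by omega)
    refine ⟨H.mk c hc, ?_⟩
    funext j
    rw [← hb j]
    refine H.mk_eq_mk.2 ?_
    have h2 : c j - x j = 0 := by rw [hc1 j, sub_self]
    change c j - x j ∈ _
    rw [h2]
    exact Submodule.zero_mem _

/-- `F n (S / A) ≃ ∏ H j (S / A)` -/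
noncomputable def compEquiv (h : Triv G S A) (n : ℕ) :
    H (G.TotS S hS) (G.TotS A hA) n ≃ₗ[k] ∀ j : Fin (n + 1), H S A j :=
  LinearEquiv.ofBijective _ (compMap_bijective h n)

theorem finite_F (h : Triv G S A) [∀ j, FiniteDimensional k (H S A j)] (n : ℕ) :
    FiniteDimensional k (H (G.TotS S hS) (G.TotS A hA) n) :=
  LinearEquiv.finiteDimensional (compEquiv (hS := hS) (hA := hA) h n).symm

theorem finrank_F (h : Triv G S A) [∀ j, FiniteDimensional k (H S A j)] (n : ℕ) :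
    finrank k (H (G.TotS S hS) (G.TotS A hA) n) =
      ∑ j ∈ range (n + 1), finrank k (H S A j) := by
  rw [(compEquiv (hS := hS) (hA := hA) h n).finrank_eq, Module.finrank_pi_fintype,
    Finset.sum_range]

/-- high classes come from low degrees -/
theorem umap_surjective (h : Triv G S A) {J : ℕ} (hJ : ∀ j ≥ J, ∀ x ∈ Zc S A j, x ∈ Bc S A j)
    {n : ℕ} (hn : J ≤ n) (m : ℕ) : Function.Surjective (umap G S A hS hA n m) := by
  refine H.gmap_surjective fun c hc => ?_
  let c' : ∀ q, C.K q := fun q => if q ≤ n then c q else 0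
  have hc' : c' ∈ Zc (G.TotS S hS) (G.TotS A hA) n :=
    h.Zc_of_comp (fun q hq => by
      change (if q ≤ n then c q else 0) ∈ _
      rw [if_pos hq]
      exact h.comp_Zc hc q) fun q hq => if_neg (by omega)
  refine ⟨c', hc', ?_⟩
  refine h.Bc_of_comp (fun q hq => ?_) (fun q hq => ?_)
  · change c q - (if q ≤ n then c q else 0) ∈ _
    split_ifs with hqn
    · rw [sub_self]; exact Submodule.zero_mem _
    · rw [sub_zero]
      exact hJ q (by omega) _ (h.comp_Zc hc q)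
  · change c q - (if q ≤ n then c q else 0) = 0
    rw [if_neg (by omega), sub_zero]
    exact (mem_Zc.1 hc).1.2 q hq

end Triv

section Loc

variable {S A T : Sub C} {hS : G.Stable S} {hA : G.Stable A} {hT : G.Stable T}

/-- every equivariant class of `A / T` is killed by a power of `u` -/
def UTors (G : GCx C) (A T : Sub C) (hA : G.Stable A) (hT : G.Stable T) : Prop :=
  ∀ n, ∀ c ∈ Zc (G.TotS A hA) (G.TotS T hT) n, ∃ m, (c : G.Tot.K (n + 2 * m)) ∈
    Bc (G.TotS A hA) (G.TotS T hT) (n + 2 * m)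

theorem UNil.uTors {m : ℕ} (h : UNil G A T hA hT m) : UTors G A T hA hT :=
  fun n c hc => ⟨m, h n c hc⟩

/-- The restriction `F n (S / T) → F n (S / A)`. -/
def resF (hS : G.Stable S) (hA : G.Stable A) (hT : G.Stable T) (hTA : T ≤ A) (n : ℕ) :
    H (G.TotS S hS) (G.TotS T hT) n →ₗ[k] H (G.TotS S hS) (G.TotS A hA) n :=
  Hinc le_rfl (TotS_le hTA) n

theorem resF_mk (hTA : T ≤ A) {n : ℕ} {c : ∀ q, C.K q}
    (hc : c ∈ Zc (G.TotS S hS) (G.TotS T hT) n) :
    resF hS hA hT hTA n (H.mk c hc) =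
      H.mk (C := G.Tot) c (Zc_mono le_rfl (TotS_le hTA) n hc) := rfl

/-- classes of `S / A` lift after multiplication by a power of `u` -/
theorem exists_lift (hTA : T ≤ A) (hAS : A ≤ S) (ht : UTors G A T hA hT) {n : ℕ}
    (x : H (G.TotS S hS) (G.TotS A hA) n) :
    ∃ m₀, ∀ m ≥ m₀, umap G S A hS hA n m x ∈ LinearMap.range (resF hS hA hT hTA (n + 2 * m)) := by
  obtain ⟨c, hc, rfl⟩ := H.exists_mk x
  obtain ⟨h1, h2⟩ := mem_Zc.1 hc
  have h2' : G.D n c ∈ (G.TotS A hA).S (n + 1) := h2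
  have h3 : G.D n c ∈ Zc (G.TotS A hA) (G.TotS T hT) (n + 1) := by
    refine mem_Zc.2 ⟨h2', ?_⟩
    have h4 : G.Tot.d (n + 1) (G.D n c) = 0 := G.D_D n c
    rw [h4]
    exact Submodule.zero_mem _
  obtain ⟨m₀, hm₀⟩ := ht (n + 1) _ h3
  refine ⟨m₀, fun m hm => ?_⟩
  rw [show n + 1 + 2 * m₀ = n + 2 * m₀ + 1 by ring] at hm₀
  obtain ⟨z, hz, hzc⟩ := mem_Bc_succ.1 hm₀
  have hzc' : G.D n c - G.D n z ∈ (G.TotS T hT).S (n + 2 * m₀ + 1) := by
    have h5 : G.D n c - G.D (n + 2 * m₀) z ∈ (G.TotS T hT).S (n + 2 * m₀ + 1) := hzc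
    rwa [Dadd] at h5
  have hzS : z ∈ (G.TotS S hS).S (n + 2 * m₀) := TotS_le (hS := hS) hAS _ hz
  have h6 : c - z ∈ (G.TotS S hS).S (n + 2 * m) :=
    Submodule.sub_mem _ (GCx.Pair.TS_mono (by omega) h1) (GCx.Pair.TS_mono (by omega) hzS)
  have h7 : G.D (n + 2 * m) (c - z) ∈ (G.TotS T hT).S (n + 2 * m + 1) := by
    rw [Dadd, map_sub]
    exact GCx.Pair.TS_mono (by omega) hzc'
  have hcz : c - z ∈ Zc (G.TotS S hS) (G.TotS T hT) (n + 2 * m) := mem_Zc.2 ⟨h6, h7⟩
  refine ⟨H.mk (C := G.Tot) (c - z) hcz, ?_⟩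
  rw [resF_mk, umap_mk, H.mk_eq_mk]
  refine T_le_Bc _ _ _ ?_
  have h8 : c - z - c = -z := by abel
  rw [h8]
  exact Submodule.neg_mem _ (GCx.Pair.TS_mono (by omega) hz)

/-- uniform version -/
theorem exists_lift_uniform (hTA : T ≤ A) (hAS : A ≤ S) (ht : UTors G A T hA hT) (n : ℕ)
    [FiniteDimensional k (H (G.TotS S hS) (G.TotS A hA) n)] :
    ∃ m₀, ∀ m ≥ m₀, LinearMap.range (umap G S A hS hA n m) ≤
      LinearMap.range (resF hS hA hT hTA (n + 2 * m)) := by
  classical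
  obtain ⟨s, hs⟩ := Module.Finite.fg_top (R := k) (M := H (G.TotS S hS) (G.TotS A hA) n)
  choose f hf using fun x : H (G.TotS S hS) (G.TotS A hA) n =>
    exists_lift (hS := hS) (hA := hA) (hT := hT) hTA hAS ht x
  refine ⟨s.sup f, fun m hm => ?_⟩
  have h1 : (⊤ : Submodule k (H (G.TotS S hS) (G.TotS A hA) n)) ≤
      (LinearMap.range (resF hS hA hT hTA (n + 2 * m))).comap (umap G S A hS hA n m) := by
    rw [← hs, Submodule.span_le]
    intro x hx
    exact hf x m ((Finset.le_sup (f := f) hx).trans hm)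
  rintro _ ⟨x, rfl⟩
  exact h1 (Submodule.mem_top (x := x))

/-- **Localisation**: `F n (S / T) → F n (S / A)` is onto in high degrees. -/
theorem exists_surjective (h : Triv G S A) (hTA : T ≤ A) (hAS : A ≤ S)
    (ht : UTors G A T hA hT) [∀ j, FiniteDimensional k (H S A j)] {J : ℕ}
    (hJ : ∀ j ≥ J, ∀ x ∈ Zc S A j, x ∈ Bc S A j) :
    ∃ N, ∀ n ≥ N, Function.Surjective (resF hS hA hT hTA n) := by
  have := finite_F (hS := hS) (hA := hA) h
  obtain ⟨m₁, h1⟩ := exists_lift_uniform (hS := hS) (hA := hA) (hT := hT) hTA hAS ht J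
  obtain ⟨m₂, h2⟩ := exists_lift_uniform (hS := hS) (hA := hA) (hT := hT) hTA hAS ht (J + 1)
  refine ⟨J + 1 + 2 * max m₁ m₂, fun n hn => ?_⟩
  rw [← LinearMap.range_eq_top, eq_top_iff]
  rcases Nat.even_or_odd' (n - J) with ⟨m, hm | hm⟩
  · obtain rfl : n = J + 2 * m := by omega
    refine le_trans ?_ (h1 m (by have := le_max_left m₁ m₂; omega))
    rw [LinearMap.range_eq_top.2 (umap_surjective h hJ le_rfl m)]
  · obtain rfl : n = J + 1 + 2 * m := by omega
    refine le_trans ?_ (h2 m (by have := le_max_right m₁ m₂; omega))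
    rw [LinearMap.range_eq_top.2 (umap_surjective h hJ (by omega) m)]

/-- **The count** needed for the Smith inequality. -/
theorem count (h : Triv G S A) (hTA : T ≤ A) (hAS : A ≤ S)
    (ht : UTors G A T hA hT) [∀ j, FiniteDimensional k (H S A j)]
    [∀ n, FiniteDimensional k (H (G.TotS S hS) (G.TotS T hT) n)] {J : ℕ}
    (hJ : ∀ j ≥ J, ∀ x ∈ Zc S A j, x ∈ Bc S A j) (m : ℕ) :
    ∃ n ≥ m, 2 * ∑ j ∈ range J, finrank k (H S A j) ≤
      finrank k (H (G.TotS S hS) (G.TotS T hT) (n + 1)) +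
      finrank k (H (G.TotS S hS) (G.TotS T hT) n) := by
  obtain ⟨N, hN⟩ := exists_surjective (hS := hS) (hA := hA) (hT := hT) h hTA hAS ht hJ
  have := finite_F (hS := hS) (hA := hA) h
  have key : ∀ n, N ≤ n → J ≤ n → ∑ j ∈ range J, finrank k (H S A j) ≤
      finrank k (H (G.TotS S hS) (G.TotS T hT) n) := by
    intro n hn hJn
    have h1 := LinearMap.finrank_range_le (resF hS hA hT hTA n)
    rw [LinearMap.range_eq_top.2 (hN n hn), finrank_top, finrank_F h] at h1
    refine le_trans (Finset.sum_le_sum_of_subset ?_) h1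
    exact Finset.range_subset_range.2 (by omega)
  refine ⟨max m (max N J), le_max_left _ _, ?_⟩
  have h1 := key (max m (max N J)) (by omega) (by omega)
  have h2 := key (max m (max N J) + 1) (by omega) (by omega)
  omega

end Loc

end Vale.Agent.P216.H609
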