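import Mathlib

/-!
# Null homotopy of the periodicity operator for induced pieces: the operator identities

`g` an endomorphism with `g ^ p = 1`, `e` any endomorphism, `e j = g ^ j e g ^ (p - j)`;
`a' = ∑ j, e j (1 + g + ... + g ^ (j - 1))`.  Then
`N e + a' (1 - g) = ∑ j, e j` and `(1 - g) a' + e N = ∑ j, e j`, `N = ∑ i, g ^ i`.
-/

namespace Vale.Agent.P216.H609

open Finset

variable {R : Type*} [Ring R]

/-- the norm -/
def nm (p : ℕ) (g : R) : R := ∑ i ∈ range p, g ^ i

/-- the conjugates -/
def cj (p : ℕ) (g e : R) (j : ℕ) : R := g ^ j * e * g ^ (p - j)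

/-- the second operator -/
def ap (p : ℕ) (g e : R) : R := ∑ j ∈ range p, cj p g e j * ∑ i ∈ range j, g ^ i

theorem geom_mul (g : R) (j : ℕ) : (∑ i ∈ range j, g ^ i) * (1 - g) = 1 - g ^ j := by
  induction j with
  | zero => simp
  | succ j ih =>
    rw [sum_range_succ, add_mul, ih, pow_succ]
    noncomm_ring

theorem mul_nm {p : ℕ} {g : R} (hg : g ^ p = 1) : g * nm p g = nm p g := by
  have h : g * nm p g + 1 = nm p g + 1 := by
    unfold nm
    rw [mul_sum]
    simp_rw [← pow_succ']
    rw [← pow_zero g, ← sum_range_succ' (fun i => g ^ i), sum_range_succ, hg, pow_zero]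
  exact add_right_cancel h

theorem nm_mul {p : ℕ} {g : R} (hg : g ^ p = 1) : nm p g * g = nm p g := by
  have h : nm p g * g + 1 = nm p g + 1 := by
    unfold nm
    rw [sum_mul]
    simp_rw [← pow_succ]
    rw [← pow_zero g, ← sum_range_succ' (fun i => g ^ i), sum_range_succ, hg, pow_zero]
  exact add_right_cancel h

theorem pow_mul_nm {p : ℕ} {g : R} (hg : g ^ p = 1) (j : ℕ) : g ^ j * nm p g = nm p g := by
  induction j with
  | zero => simp
  | succ j ih => rw [pow_succ, mul_assoc, mul_nm hg, ih]

theorem nm_comp {p : ℕ} {g : R} (hg : g ^ p = 1) : nm p g * (1 - g) = 0 := by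
  rw [mul_sub, mul_one, nm_mul hg, sub_self]

theorem comp_nm {p : ℕ} {g : R} (hg : g ^ p = 1) : (1 - g) * nm p g = 0 := by
  rw [sub_mul, one_mul, mul_nm hg, sub_self]

/-- first identity -/
theorem nm_mul_add {p : ℕ} {g : R} (hg : g ^ p = 1) (e : R) :
    nm p g * e + ap p g e * (1 - g) = ∑ j ∈ range p, cj p g e j := by
  have h : ap p g e * (1 - g) = ∑ j ∈ range p, (cj p g e j - g ^ j * e) := by
    unfold ap
    rw [sum_mul]
    refine sum_congr rfl fun j hj => ?_
    rw [mul_assoc, geom_mul, mul_sub, mul_one]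
    congr 1
    unfold cj
    rw [mul_assoc, ← pow_add, Nat.sub_add_cancel (mem_range.1 hj).le, hg, mul_one]
  rw [h, sum_sub_distrib]
  unfold nm
  rw [sum_mul]
  abel

/-- second identity -/
theorem sub_mul_add {p : ℕ} {g : R} (hg : g ^ p = 1) (e : R) :
    (1 - g) * ap p g e + e * nm p g = ∑ j ∈ range p, cj p g e j := by
  have key : ∀ m, m ≤ p → (1 - g) * ∑ j ∈ range m, cj p g e j * ∑ i ∈ range j, g ^ i =
      (∑ j ∈ range m, cj p g e (j + 1)) - g ^ m * e * ∑ i ∈ range m, g ^ (p - 1 - i) := by
    intro m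
    induction m with
    | zero => intro _; simp
    | succ m ih =>
      intro hm
      have h1 : cj p g e m * ∑ i ∈ range m, g ^ i =
          g ^ m * e * ∑ i ∈ range m, g ^ (p - 1 - i) := by
        unfold cj
        rw [mul_assoc (g ^ m * e), mul_sum]
        congr 1
        rw [← sum_range_reflect (fun i => g ^ (p - 1 - i)) m]
        refine sum_congr rfl fun i hi => ?_
        have hi := mem_range.1 hi
        rw [← pow_add]
        congr 1
        omega
      rw [sum_range_succ, mul_add, ih (by omega), h1, sum_range_succ (fun j => cj p g e (j + 1)),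
        sum_range_succ (fun i => g ^ (p - 1 - i)) m]
      have h2 : cj p g e (m + 1) = g ^ (m + 1) * e * g ^ (p - 1 - m) := by
        unfold cj
        congr 2
        omega
      rw [h2, pow_succ' g m]
      noncomm_ring
  have h := key p le_rfl
  have h1 : (∑ j ∈ range p, cj p g e (j + 1)) = ∑ j ∈ range p, cj p g e j := by
    have h2 : (∑ j ∈ range p, cj p g e (j + 1)) + cj p g e 0 =
        (∑ j ∈ range p, cj p g e j) + cj p g e p := by
      rw [← sum_range_succ' (fun j => cj p g e j), sum_range_succ]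
    have h3 : cj p g e 0 = cj p g e p := by
      unfold cj
      rw [pow_zero, one_mul, Nat.sub_zero, hg, mul_one, Nat.sub_self, pow_zero, one_mul, mul_one]
    rw [h3] at h2
    exact add_right_cancel h2
  have h2 : (∑ i ∈ range p, g ^ (p - 1 - i)) = nm p g := sum_range_reflect (fun i => g ^ i) p
  unfold ap
  rw [h, h1, h2, hg, one_mul, sub_add_cancel]

end Vale.Agent.P216.H609
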