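import Vale.Agent.P216.AS.Cx
import Vale.Agent.P216.H609.Op

/-!
# Endomorphisms of a subquotient `S / T` form an algebra; the operator `a'` is one of them
-/

namespace Vale.Agent.P216.H609

open Vale.Agent.P216.AS Finset

variable {k : Type} [Field k] {C C' : Amb k}

namespace Mor

variable {S T : Sub C} {S' T' : Sub C'}

theorem zero : IsMor S T S' T' (fun _ => 0) :=
  IsMor.of_comm (fun _ => Submodule.zero_mem _) (fun _ => Submodule.zero_mem _)
    (fun _ _ => by simp)

theorem add {φ ψ : ∀ n, C.K n →ₗ[k] C'.K n} (hφ : IsMor S T S' T' φ) (hψ : IsMor S T S' T' ψ) :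
    IsMor S T S' T' (fun n => φ n + ψ n) where
  mapS hx := Submodule.add_mem _ (hφ.mapS hx) (hψ.mapS hx)
  mapT hx := Submodule.add_mem _ (hφ.mapT hx) (hψ.mapT hx)
  comm {n x} hx := by
    have h := Submodule.add_mem _ (hφ.comm hx) (hψ.comm hx)
    convert h using 1
    rw [LinearMap.add_apply, LinearMap.add_apply, map_add]
    abel

theorem smul {φ : ∀ n, C.K n →ₗ[k] C'.K n} (hφ : IsMor S T S' T' φ) (a : k) :
    IsMor S T S' T' (fun n => a • φ n) where
  mapS hx := Submodule.smul_mem _ _ (hφ.mapS hx)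
  mapT hx := Submodule.smul_mem _ _ (hφ.mapT hx)
  comm {n x} hx := by
    have h := Submodule.smul_mem _ a (hφ.comm hx)
    convert h using 1
    rw [LinearMap.smul_apply, LinearMap.smul_apply, map_smul, smul_sub]

theorem neg {φ : ∀ n, C.K n →ₗ[k] C'.K n} (hφ : IsMor S T S' T' φ) :
    IsMor S T S' T' (fun n => - φ n) where
  mapS hx := Submodule.neg_mem _ (hφ.mapS hx)
  mapT hx := Submodule.neg_mem _ (hφ.mapT hx)
  comm {n x} hx := by
    have h := Submodule.neg_mem _ (hφ.comm hx)
    convert h using 1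
    rw [LinearMap.neg_apply, LinearMap.neg_apply, map_neg]
    abel

theorem sub {φ ψ : ∀ n, C.K n →ₗ[k] C'.K n} (hφ : IsMor S T S' T' φ) (hψ : IsMor S T S' T' ψ) :
    IsMor S T S' T' (fun n => φ n - ψ n) := by
  have h := add hφ (neg hψ)
  simpa only [sub_eq_add_neg] using h

theorem sum {ι : Type*} (s : Finset ι) {φ : ι → ∀ n, C.K n →ₗ[k] C'.K n}
    (hφ : ∀ i ∈ s, IsMor S T S' T' (φ i)) : IsMor S T S' T' (fun n => ∑ i ∈ s, φ i n) := by
  classical
  induction s using Finset.induction_on with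
  | empty => simpa only [sum_empty] using (zero : IsMor S T S' T' (fun _ => 0))
  | insert a s ha ih =>
    have h := add (hφ a (mem_insert_self a s)) (ih fun i hi => hφ i (mem_insert_of_mem hi))
    simpa only [sum_insert ha] using h

theorem one : IsMor S T S T (fun n => (1 : Module.End k (C.K n))) :=
  IsMor.id_of_le le_rfl le_rfl

theorem mul {φ ψ : ∀ n, Module.End k (C.K n)} (hφ : IsMor S T S T φ) (hψ : IsMor S T S T ψ) :
    IsMor S T S T (fun n => φ n * ψ n) := hφ.comp hψ

theorem pow {φ : ∀ n, Module.End k (C.K n)} (hφ : IsMor S T S T φ) (j : ℕ) :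
    IsMor S T S T (fun n => φ n ^ j) := by
  induction j with
  | zero => simpa only [pow_zero] using (one : IsMor S T S T _)
  | succ j ih => simpa only [pow_succ] using mul ih hφ

/-- the norm -/
theorem nm {g : ∀ n, Module.End k (C.K n)} (hg : IsMor S T S T g) (p : ℕ) :
    IsMor S T S T (fun n => H609.nm p (g n)) := sum _ fun i _ => pow hg i

theorem cj {g e : ∀ n, Module.End k (C.K n)} (hg : IsMor S T S T g) (he : IsMor S T S T e)
    (p j : ℕ) : IsMor S T S T (fun n => H609.cj p (g n) (e n) j) :=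
  mul (mul (pow hg j) he) (pow hg _)

theorem ap {g e : ∀ n, Module.End k (C.K n)} (hg : IsMor S T S T g) (he : IsMor S T S T e)
    (p : ℕ) : IsMor S T S T (fun n => H609.ap p (g n) (e n)) :=
  sum _ fun j _ => mul (cj hg he p j) (sum _ fun i _ => pow hg i)

end Mor

end Vale.Agent.P216.H609
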