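import Vale.Agent.P216.AS.Tot
import Vale.Agent.P216.H609.MorAlg

/-!
# Induced pieces: the periodicity operator is zero, finitely many pieces: nilpotent

`UNil G S T hS hT m` : every equivariant cocycle of `S / T` of degree `n` is a coboundary after
`u ^ m` (i.e. in degree `n + 2 m`).
-/

namespace Vale.Agent.P216.H609

open Vale.Agent.P216.AS Finset

variable {k : Type} [Field k] {C : Amb k} {G : GCx C}

/-- `u ^ m = 0` on the equivariant cohomology of `S / T`, in terms of cochains. -/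
def UNil (G : GCx C) (S T : Sub C) (hS : G.Stable S) (hT : G.Stable T) (m : ℕ) : Prop :=
  ∀ n, ∀ c ∈ Zc (G.TotS S hS) (G.TotS T hT) n, (c : G.Tot.K (n + 2 * m)) ∈
    Bc (G.TotS S hS) (G.TotS T hT) (n + 2 * m)

theorem Dadd (G : GCx C) (n m : ℕ) : G.D (n + 2 * m) = G.D n := by
  induction m with
  | zero => rfl
  | succ m ih => rw [show n + 2 * (m + 1) = n + 2 * m + 2 by ring, G.D_add_two, ih]

/-- the null homotopy of `u` -/
def ht (p : ℕ) (g e : ∀ n, Module.End k (C.K n)) (n : ℕ) (c : ∀ q, C.K q) (q : ℕ) : C.K q :=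
  (-1 : k) ^ q • (if Odd (n + 1 + q) then e q (c q) else ap p (g q) (e q) (c q))

theorem key {S T : Sub C} {p : ℕ} {e : ∀ n, Module.End k (C.K n)}
    (hgp : ∀ n, (G.g n : Module.End k (C.K n)) ^ p = 1)
    (hnm : ∀ n, G.nm n = nm p (G.g n : Module.End k (C.K n)))
    (hgm : IsMor S T S T G.g) (he : IsMor S T S T e)
    (hsum : ∀ n, ∀ x ∈ S n, ∑ j ∈ range p, cj p (G.g n : Module.End k (C.K n)) (e n) j x - x ∈ T n)
    (n : ℕ) (c : ∀ q, C.K q) (hc : ∀ q, c q ∈ S q) (q : ℕ) :
    G.D (n + 1) (ht p G.g e n c) q + ht p G.g e (n + 1) (G.D n c) q - c q ∈ T q := by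
  have hap := Mor.ap hgm he p
  -- algebra in one degree
  have alg : ∀ (m : ℕ) (q : ℕ) (x : C.K q), x ∈ S q →
      G.θ (m + 1) q (if Odd m then e q x else ap p (G.g q : Module.End k (C.K q)) (e q) x) +
      (if Odd (m + 1) then e q (G.θ m q x) else
        ap p (G.g q : Module.End k (C.K q)) (e q) (G.θ m q x)) - x ∈ T q := by
    intro m q x hx
    have h := hsum q x hx
    rcases Nat.even_or_odd m with hm | hm
    · have h1 : Odd (m + 1) := hm.add_one
      have h2 : ¬ Odd m := Nat.not_odd_iff_even.2 hm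
      rw [if_neg h2, if_pos h1, G.θ_odd (Nat.odd_iff.1 h1), G.θ_even (Nat.even_iff.1 hm), hnm]
      have h3 := LinearMap.congr_fun (sub_mul_add (hgp q) (e q)) x
      rw [LinearMap.add_apply, Module.End.mul_apply, Module.End.mul_apply, LinearMap.sum_apply,
        LinearMap.sub_apply, Module.End.one_apply] at h3
      rw [h3]
      exact h
    · have h1 : ¬ Odd (m + 1) := Nat.not_odd_iff_even.2 hm.add_one
      rw [if_pos hm, if_neg h1, G.θ_even (Nat.even_iff.1 hm.add_one), G.θ_odd (Nat.odd_iff.1 hm),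
        hnm]
      have h3 := LinearMap.congr_fun (nm_mul_add (hgp q) (e q)) x
      rw [LinearMap.add_apply, Module.End.mul_apply, Module.End.mul_apply, LinearMap.sum_apply,
        LinearMap.sub_apply, Module.End.one_apply] at h3
      rw [h3]
      exact h
  cases q with
  | zero =>
    have h := alg (n + 1) 0 (c 0) (hc 0)
    simp only [GCx.D_zero, ht, pow_zero, one_smul]
    simpa using h
  | succ q =>
    have h := alg (n + q) (q + 1) (c (q + 1)) (hc (q + 1))
    -- vertical part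
    have hv : C.d q (if Odd (n + 1 + q) then e q (c q) else
          ap p (G.g q : Module.End k (C.K q)) (e q) (c q)) -
        (if Odd (n + 1 + q) then e (q + 1) (C.d q (c q)) else
          ap p (G.g (q + 1) : Module.End k (C.K (q + 1))) (e (q + 1)) (C.d q (c q))) ∈
            T (q + 1) := by
      split_ifs
      · exact he.comm (hc q)
      · exact hap.comm (hc q)
    have h4 := Submodule.smul_mem _ ((-1 : k) ^ q) hv
    have h5 := Submodule.add_mem _ h h4
    convert h5 using 1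
    have e1 : Odd (n + 1 + 1 + (q + 1)) ↔ Odd (n + 1 + q) := by
      simp only [Nat.odd_iff]; omega
    have e2 : Odd (n + 1 + (q + 1)) ↔ Odd (n + q) := by
      simp only [Nat.odd_iff]; omega
    have e3 : Odd (n + 1 + q) ↔ Odd (n + q + 1) := by
      simp only [Nat.odd_iff]; omega
    simp only [GCx.D_succ, ht]
    rw [G.θ_congr (i := n + 1 + 1 + (q + 1)) (j := n + q + 1) (by omega),
      G.θ_congr (i := n + 1 + (q + 1)) (j := n + q) (by omega)]
    simp only [e1, e2]
    have s1 : (-1 : k) ^ (q + 1) = - (-1) ^ q := by rw [pow_succ]; ring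
    have s2 : ((-1 : k) ^ q) * (-1) ^ q = 1 := by
      rw [← mul_pow]; simp
    rw [s1]
    by_cases hp : Odd (n + 1 + q)
    · simp only [if_pos hp, if_pos (e3.1 hp)]
      have hp' : ¬ Odd (n + q) := by
        simp only [Nat.odd_iff] at hp ⊢; omega
      simp only [if_neg hp']
      simp only [map_add, map_smul, smul_add, smul_smul, smul_sub, neg_smul, neg_mul, map_neg,
        smul_neg, neg_neg, s2, one_smul]
      abel
    · have hp2 : ¬ Odd (n + q + 1) := fun h => hp (e3.2 h)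
      simp only [if_neg hp, if_neg hp2]
      have hp' : Odd (n + q) := by
        simp only [Nat.odd_iff] at hp ⊢; omega
      simp only [if_pos hp']
      simp only [map_add, map_smul, smul_add, smul_smul, smul_sub, neg_smul, neg_mul, map_neg,
        smul_neg, neg_neg, s2, one_smul]
      abel

/-- **Induced piece**: `u = 0`. -/
theorem uNil_one {S T : Sub C} (hS : G.Stable S) (hT : G.Stable T) {p : ℕ}
    {e : ∀ n, Module.End k (C.K n)}
    (hgp : ∀ n, (G.g n : Module.End k (C.K n)) ^ p = 1)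
    (hnm : ∀ n, G.nm n = nm p (G.g n : Module.End k (C.K n)))
    (he : IsMor S T S T e)
    (hsum : ∀ n, ∀ x ∈ S n,
      ∑ j ∈ range p, cj p (G.g n : Module.End k (C.K n)) (e n) j x - x ∈ T n) :
    UNil G S T hS hT 1 := by
  have hgm : IsMor S T S T G.g :=
    IsMor.of_comm (fun hx => hS.g_mem _ _ hx) (fun hx => hT.g_mem _ _ hx) G.d_g
  have hap := Mor.ap hgm he p
  -- `ht` maps `Tot S` to `Tot S`, `Tot T` to `Tot T`
  have hmap : ∀ (R : Sub C) (hR : G.Stable R), (∀ n x, x ∈ R n → e n x ∈ R n) →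
      (∀ n x, x ∈ R n → ap p (G.g n : Module.End k (C.K n)) (e n) x ∈ R n) →
      ∀ n m (c : ∀ q, C.K q), c ∈ (G.TotS R hR).S m →
        (ht p G.g e n c : ∀ q, C.K q) ∈ (G.TotS R hR).S m := by
    intro R hR h1 h2 n m c hc
    refine ⟨fun q hq => Submodule.smul_mem _ _ ?_, fun q hq => ?_⟩
    · split_ifs
      · exact h1 _ _ (hc.1 q hq)
      · exact h2 _ _ (hc.1 q hq)
    · change (-1 : k) ^ q • (if Odd (n + 1 + q) then e q (c q) else
        ap p (G.g q : Module.End k (C.K q)) (e q) (c q)) = 0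
      rw [hc.2 q hq]
      simp
  intro n c hc
  obtain ⟨h1, h2⟩ := mem_Zc.1 hc
  have hcS : ∀ q, c q ∈ S q := fun q => by
    rcases Nat.lt_or_ge n q with h | h
    · rw [h1.2 q h]; exact Submodule.zero_mem _
    · exact h1.1 q h
  have hyS : (ht p G.g e n c : ∀ q, C.K q) ∈ (G.TotS S hS).S (n + 1) :=
    GCx.Pair.TS_mono (by omega) (hmap S hS (fun _ _ hx => he.mapS hx) (fun _ _ hx => hap.mapS hx)
      n n c h1)
  have hzT : (ht p G.g e (n + 1) (G.D n c) : ∀ q, C.K q) ∈ (G.TotS T hT).S (n + 1) :=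
    hmap T hT (fun _ _ hx => he.mapT hx) (fun _ _ hx => hap.mapT hx) _ _ _ h2
  refine mem_Bc_succ.2 ⟨ht p G.g e n c, hyS, ?_⟩
  have hk := key hgp hnm hgm he hsum n c hcS
  -- `c - D (ht c) = (c - D ht - ht D) + ht D`
  have hsplit : c - G.D (n + 1) (ht p G.g e n c) =
      -(G.D (n + 1) (ht p G.g e n c) + ht p G.g e (n + 1) (G.D n c) - c) +
        ht p G.g e (n + 1) (G.D n c) := by abel
  change c - G.D (n + 1) (ht p G.g e n c) ∈ (G.TotS T hT).S (n + 2)
  rw [hsplit]
  refine Submodule.add_mem _ (Submodule.neg_mem _ ⟨fun q _ => hk q, fun q hq => ?_⟩)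
    (GCx.Pair.TS_mono (by omega) hzT)
  have h3 := ((G.TotS S hS).d_mem hyS).2 q hq
  have h4 : (ht p G.g e (n + 1) (G.D n c) : ∀ q, C.K q) q = 0 := hzT.2 q (by omega)
  have h5 : c q = 0 := h1.2 q (by omega)
  change G.D (n + 1) (ht p G.g e n c) q + ht p G.g e (n + 1) (G.D n c) q - c q = 0
  rw [h4, h5]
  change G.D (n + 1) (ht p G.g e n c) q = 0 at h3
  rw [h3]
  simp

theorem uNil_zero {S : Sub C} (hS : G.Stable S) : UNil G S S hS hS 0 := by
  intro n c hc
  exact T_le_Bc _ _ _ hc.1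

/-- **Composition** of nilpotence along a filtration `T ≤ R ≤ S`. -/
theorem UNil.trans {S R T : Sub C} {hS : G.Stable S} {hR : G.Stable R} {hT : G.Stable T}
    (hRS : R ≤ S) (hTR : T ≤ R) {m m' : ℕ} (h : UNil G S R hS hR m) (h' : UNil G R T hR hT m') :
    UNil G S T hS hT (m + m') := by
  intro n c hc
  obtain ⟨h1, h2⟩ := mem_Zc.1 hc
  have h2R : G.D n c ∈ (G.TotS R hR).S (n + 1) := ⟨fun q hq => hTR q (h2.1 q hq), h2.2⟩
  have h3 := h n c (mem_Zc.2 ⟨h1, h2R⟩)
  -- `c = D y + t`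
  obtain ⟨t, ht, w, hw, htw⟩ := mem_Bc.1 h3
  have hDw : G.D (n + 2 * m) w = 0 := d_im hw
  have hDt : G.D (n + 2 * m) t = G.D n c := by
    rw [← Dadd G n m, ← htw, map_add, hDw, add_zero]
  have ht' : t ∈ Zc (G.TotS R hR) (G.TotS T hT) (n + 2 * m) := by
    refine mem_Zc.2 ⟨ht, ?_⟩
    change G.D (n + 2 * m) t ∈ _
    rw [hDt]
    exact GCx.Pair.TS_mono (by omega) h2
  have h4 := h' _ t ht'
  have h5 : (t : G.Tot.K (n + 2 * m + 2 * m')) ∈
      Bc (G.TotS S hS) (G.TotS T hT) (n + 2 * m + 2 * m') :=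
    Bc_mono (S := G.TotS R hR) (S' := G.TotS S hS) (T := G.TotS T hT) (T' := G.TotS T hT)
      (fun _ _ hx => ⟨fun q hq => hRS q (hx.1 q hq), hx.2⟩) le_rfl _ h4
  -- `w` in degree `n + 2 m + 2 m'`
  have h6 : (w : G.Tot.K (n + 2 * m + 2 * m')) ∈
      Bc (G.TotS S hS) (G.TotS T hT) (n + 2 * m + 2 * m') := by
    refine im_le_Bc _ _ _ ?_
    rcases hnm : n + 2 * m with _ | l
    · rw [hnm] at hw
      rw [mem_im_zero.1 hw]
      exact Submodule.zero_mem _
    · rw [hnm] at hw
      obtain ⟨y, hy, hyw⟩ := mem_im_succ.1 hw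
      rw [show l + 1 + 2 * m' = (l + 2 * m') + 1 by ring]
      refine mem_im_succ.2 ⟨y, GCx.Pair.TS_mono (by omega) hy, ?_⟩
      change G.D (l + 2 * m') y = w
      rw [Dadd]
      exact hyw
  have h7 := Submodule.add_mem _ h5 h6
  have h8 : (t + w : G.Tot.K (n + 2 * m + 2 * m')) = c := htw
  rw [h8] at h7
  rw [show n + 2 * (m + m') = n + 2 * m + 2 * m' by ring]
  exact h7

/-- a chain of `m` induced pieces -/
theorem uNil_chain {S : ℕ → Sub C} (hS : ∀ i, G.Stable (S i)) (m : ℕ)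
    (hle : ∀ i < m, S (i + 1) ≤ S i) (h : ∀ i < m, UNil G (S i) (S (i + 1)) (hS i) (hS (i + 1)) 1) :
    UNil G (S 0) (S m) (hS 0) (hS m) m := by
  induction m with
  | zero => exact uNil_zero _
  | succ m ih =>
    have hle' : ∀ i, i ≤ m → S i ≤ S 0 := by
      intro i
      induction i with
      | zero => intro _; exact le_rfl
      | succ i ih => intro hi; exact (hle i (by omega)).trans (ih (by omega))
    exact (ih (fun i hi => hle i (by omega)) fun i hi => h i (by omega)).trans (hle' m le_rfl)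
      (hle m (by omega)) (h m (by omega))

end Vale.Agent.P216.H609
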