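import Vale.Agent.P216.Spine.Build
import Vale.Agent.P216.LS.Stmt
import Vale.Agent.P216.Smooth.Geo
import Vale.Agent.P216.Bdl.B1

/-!
# Glue: from the contract to the theorem (P216, Theorem A)
-/

open Set Topology Bundle Manifold
open scoped ContDiff

namespace Vale.Agent.P216.H609

open Vale.Agent.P216.L250 Vale.Agent.P216.H288 Vale.Agent.P216.H494

theorem uniqSeg_LS {M : Type*} [MetricSpace M] {ρ : ℝ} (h : Geo.UniqSeg M ρ) :
    LS.UniqSeg (M := M) ρ := fun x y hxy t ht => h x y hxy t ht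

/-- The theorem from the three inputs and `no_gsys`. -/
theorem infinite_of {E : Type} [NormedAddCommGroup E] [NormedSpace ℝ E] [FiniteDimensional ℝ E]
    {M : Type} [MetricSpace M] [CompactSpace M] [ChartedSpace E M] [IsManifold 𝓘(ℝ, E) ∞ M]
    [RiemannianBundle (fun x : M => TangentSpace 𝓘(ℝ, E) x)]
    [IsContMDiffRiemannianBundle 𝓘(ℝ, E) ∞ E (fun x : M => TangentSpace 𝓘(ℝ, E) x)]
    [IsRiemannianManifold 𝓘(ℝ, E) M]
    (hno : ∀ S : GSys (LM M × ℂ), S.Bars → S.Bound → S.Base → False)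
    (H : Hol M)
    (hBars : ∀ (G : GeoList M) (hD : DescentStmt H G), (mkGSys H G hD).Bars)
    (hBound : ∀ (G : GeoList M) (hD : DescentStmt H G), (mkGSys H G hD).Bound)
    (hBase : ∀ (G : GeoList M) (hD : DescentStmt H G), (mkGSys H G hD).Base) :
    (primeClosedGeodesicImages M).Infinite := by
  by_contra hfin
  rw [Set.not_infinite] at hfin
  obtain ⟨G⟩ := exists_geoList (nonBranching_of_riemannian E M) hfin
  obtain ⟨ρ, hρ, hU, -⟩ := Geo.exists_uniqSeg E M
  have hD : DescentStmt H G := LS.descentStmt H G hρ (uniqSeg_LS hU)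
  exact hno _ (hBars G hD) (hBound G hD) (hBase G hD)

end Vale.Agent.P216.H609
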