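import Vale.Agent.P216.A215.Stmt
import Vale.Agent.P216.Spine.Main
import Vale.Agent.P216.H826.BarsG
import Vale.Agent.P216.Low.CPn
import Vale.Agent.P216.AS.NoGSys
import Vale.Agent.P216.H288.SweepCP
import Vale.Agent.P216.H288.Std
import Vale.Agent.P216.H804.D6
import Vale.Agent.P216.GM.TW
import Vale.Agent.P216.H41.Eul3
import Vale.Agent.P216.H319.Loc
import Vale.Agent.P216.H844.F4Fin
import Mathlib.Analysis.Normed.Module.Connected

/-!
# Theorem A: glue of the final theorems

`theoremA_maps` and `theoremA_CPn`: closed Riemannian manifolds (any smooth metric) with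
infinitely many closed geodesics.
-/

open Set Topology Bundle Manifold
open scoped ContDiff
open Vale.Agent.P216.H288 Vale.Agent.P216.H494 Vale.Agent.P216.L250

namespace Vale.Agent.P216.H609

/-- The standard family. -/
theorem stdFam (K : ℕ) {d : ℕ} (hd : Odd d) : StdFam K d gam where
  cont := continuous_gam.continuousOn
  zero τ _ := gam_zero τ
  one τ _ := (gam_one τ).trans rfl
  per t _ := gam_per t
  par _ hm := par_std K hd hm

section

variable {E : Type} [NormedAddCommGroup E] [NormedSpace ℝ E] [FiniteDimensional ℝ E]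
    {M : Type} [MetricSpace M] [CompactSpace M] [ChartedSpace E M] [IsManifold 𝓘(ℝ, E) ∞ M]
    [RiemannianBundle (fun x : M => TangentSpace 𝓘(ℝ, E) x)]
    [IsContMDiffRiemannianBundle 𝓘(ℝ, E) ∞ E (fun x : M => TangentSpace 𝓘(ℝ, E) x)]
    [IsRiemannianManifold 𝓘(ℝ, E) M]

include E in
theorem main_of [PreconnectedSpace M] {K d : ℕ} (hd : Odd d)
    (Φ : C(M, CPn (K + 1))) (f : C(CPn 1, M)) (hf : (Φ.comp f).Homotopic (powMap K d))
    (hBase : ∀ (H : Hol M) (G : GeoList M) (hD : DescentStmt H G), (mkGSys H G hD).Base) :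
    (primeClosedGeodesicImages M).Infinite := by
  obtain ⟨ρ₀, hρ₀, hs₀, _⟩ := Geo.exists_uniqSeg E M
  have hLOC : GM.LOC M := H319.loc (E := E) hρ₀ hs₀ (H844.f4_M E M)
  obtain ⟨H, hH⟩ := exists_hol_sweep_of_std hρ₀ hs₀ (stdFam K hd) Φ f hf
  refine infinite_of (E := E) H (fun S => S.no_gsys) fun ρ hρ hs G => ?_
  have hB : (gsysOf H G hρ hs).Bars := H826.bars_mkGSys H G _ hρ hs hH
  exact ⟨hB, GM.bound hρ hs hLOC GM.tw H G _ hB, hBase H G _⟩

end

/-- Homotopy equivalences preserve path connectedness. -/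
theorem pathConnected_of_equiv {X Y : Type*} [TopologicalSpace X] [TopologicalSpace Y]
    [PathConnectedSpace Y] (e : ContinuousMap.HomotopyEquiv X Y) : PathConnectedSpace X := by
  obtain ⟨F⟩ := e.left_inv
  have hj : ∀ x : X, Joined (e.invFun (e.toFun x)) x := fun x => ⟨F.evalAt x⟩
  refine ⟨⟨e.invFun (Classical.arbitrary Y)⟩, fun x y => ?_⟩
  obtain ⟨q⟩ := PathConnectedSpace.joined (e.toFun x) (e.toFun y)
  exact ((hj x).symm.trans ⟨q.map e.invFun.continuous⟩).trans (hj y)

/-- `ℂP^n` is path connected. -/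
theorem isPathConnected_CP (n : ℕ) : IsPathConnected (H391.CP (n + 1)) := by
  have h1 : IsPathConnected ({0}ᶜ : Set (_root_.Fin (n + 1) → ℂ)) := by
    refine isPathConnected_compl_singleton_of_one_lt_rank ?_ _
    have h2 : Module.finrank ℝ (_root_.Fin (n + 1) → ℂ) = (n + 1) * 2 := by
      rw [Module.finrank_pi_fintype]
      simp [Complex.finrank_real_complex]
    rw [← Module.finrank_eq_rank, h2]
    have : (1 : ℕ) < (n + 1) * 2 := by omega
    exact_mod_cast this
  have hpos : ∀ v ∈ ({0}ᶜ : Set (_root_.Fin (n + 1) → ℂ)), 0 < H391.ns v := by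
    intro v hv
    obtain ⟨i, hi⟩ := Function.ne_iff.1 hv
    have : 0 < ‖v i‖ ^ 2 := by
      have : 0 < ‖v i‖ := norm_pos_iff.2 hi
      positivity
    exact this.trans_le (Finset.single_le_sum (f := fun i => ‖v i‖ ^ 2)
      (fun _ _ => by positivity) (Finset.mem_univ i))
  have h3 : ContinuousOn (H391.npr : (_root_.Fin (n + 1) → ℂ) → _) {0}ᶜ := by
    refine continuousOn_pi.2 fun i => continuousOn_pi.2 fun j => ?_
    refine ContinuousOn.div ?_ ?_ ?_
    · exact ((continuous_apply i).mul (Complex.continuous_conj.comp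
        (continuous_apply j))).continuousOn
    · exact (Complex.continuous_ofReal.comp H391.continuous_ns).continuousOn
    · intro v hv
      exact_mod_cast (hpos v hv).ne'
  have h4 : H391.npr '' ({0}ᶜ : Set (_root_.Fin (n + 1) → ℂ)) = H391.CP (n + 1) := by
    ext P
    constructor
    · rintro ⟨v, hv, rfl⟩
      exact H391.npr_mem (hpos v hv)
    · rintro ⟨v, hv, rfl⟩
      refine ⟨v, ?_, H391.npr_of_ns hv⟩
      rintro rfl
      simp [H391.ns] at hv
  rw [← h4]
  exact h1.image' h3

instance pathConnectedSpace_CPn (n : ℕ) : PathConnectedSpace (CPn n) :=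
  isPathConnected_iff_pathConnectedSpace.1 (isPathConnected_CP n)

section

variable {E : Type} [NormedAddCommGroup E] [NormedSpace ℝ E] [FiniteDimensional ℝ E]
    {M : Type} [MetricSpace M] [CompactSpace M] [ChartedSpace E M] [IsManifold 𝓘(ℝ, E) ∞ M]
    [RiemannianBundle (fun x : M => TangentSpace 𝓘(ℝ, E) x)]
    [IsContMDiffRiemannianBundle 𝓘(ℝ, E) ∞ E (fun x : M => TangentSpace 𝓘(ℝ, E) x)]
    [IsRiemannianManifold 𝓘(ℝ, E) M]

include E in
theorem theoremA_maps [ConnectedSpace M]
    (K d : ℕ) (hd : Odd d) (Φ : C(M, CPn (K + 1))) (f : C(CPn 1, M))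
    (hf : (Φ.comp f).Homotopic (powMap K d)) {V : Type*} [NormedAddCommGroup V] [NormedSpace ℝ V]
    (T : Geometry.SimplicialComplex ℝ V) (hT : T.faces.Finite)
    (e : ContinuousMap.HomotopyEquiv M T.space) (hχ : eulerChar T hT ≠ 0) :
    (primeClosedGeodesicImages M).Infinite := by
  refine main_of (E := E) hd Φ f hf fun H G hD =>
    base_of_euler H G hD fun p hp hp2 => ?_
  obtain ⟨-, m, hm⟩ := H41.euler_space T hT e (ZMod p)
  exact ⟨m, fun m' hm' => by
    have h1 := hm m' hm'
    rw [← h1] at hχ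
    exact hχ⟩

include E in
theorem theoremA_CPn {n : ℕ} (hn : 1 ≤ n)
    (e : ContinuousMap.HomotopyEquiv M (CPn n)) : (primeClosedGeodesicImages M).Infinite := by
  obtain ⟨K, rfl⟩ : ∃ K, n = K + 1 := ⟨n - 1, by omega⟩
  have : PathConnectedSpace M := pathConnected_of_equiv e
  refine main_of (E := E) odd_one e.toFun (e.invFun.comp (powMap K 1)) ?_
    fun H G hD => base_CPn e H G hD
  have h1 := e.right_inv.comp (ContinuousMap.Homotopic.refl (powMap K 1))
  rwa [ContinuousMap.id_comp, ContinuousMap.comp_assoc] at h1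

end

end Vale.Agent.P216.H609
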