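import Vale.Agent.P216.Spine.Contract
import Vale.Agent.P216.Hol.DC
import Vale.Agent.P216.H494.CritCover

/-!
# The geometric system on `LM M × ℂ` (P216, Theorem A)

`mkGSys H G hD` : all fields of `GSys` from the holonomy `H`, the list `G` of the closed geodesics
and the descent `hD`.
-/

open Set Topology

namespace Vale.Agent.P216.H609

open Vale.Agent.P216.L250 Vale.Agent.P216.H288 Vale.Agent.P216.H494

variable {M : Type} [MetricSpace M]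

/-- Sublevel sets of the double cover, empty at negative levels. -/
def XX (H : Hol M) (s : ℝ) : Set (LM M × ℂ) := {q | 0 ≤ s ∧ q ∈ Xt H s}

theorem XX_of_nonneg (H : Hol M) {s : ℝ} (hs : 0 ≤ s) : XX H s = Xt H s := by
  ext q; exact ⟨fun h => h.2, fun h => ⟨hs, h⟩⟩

theorem XX_of_neg (H : Hol M) {s : ℝ} (hs : s < 0) : XX H s = ∅ :=
  eq_empty_of_forall_notMem fun _ hq => absurd hq.1 (not_le.2 hs)

theorem XX_subset (H : Hol M) (s : ℝ) : XX H s ⊆ Xt H s := fun _ h => h.2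

/-- D4 for the double cover. -/
def Descent (H : Hol M) (G : GeoList M) : Prop :=
  ∀ p : ℕ, p.Prime → 2 < p → ∀ T, 0 < T → ∃ D : ℝ → LM M × ℂ → LM M × ℂ,
    ContinuousOn (fun q : ℝ × (LM M × ℂ) => D q.1 q.2) (Icc (0 : ℝ) 1 ×ˢ Xt H T) ∧
    (∀ x ∈ Xt H T, D 0 x = x) ∧
    (∀ u ∈ Icc (0 : ℝ) 1, ∀ s, 0 ≤ s → s ≤ T → MapsTo (D u) (Xt H s) (Xt H s)) ∧
    (∀ u ∈ Icc (0 : ℝ) 1, ∀ x ∈ Xt H T, D u (deckC x) = deckC (D u x)) ∧
    (∀ u ∈ Icc (0 : ℝ) 1, ∀ x ∈ Xt H T, D u (rotC (1 / p : ℝ) x) = rotC (1 / p : ℝ) (D u x)) ∧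
    (∀ x ∈ Xt H T, D 1 (revC x) = revC (D 1 x)) ∧
    (∀ u ∈ Icc (0 : ℝ) 1, ∀ a, 0 < a → a ≤ T →
      MapsTo (D u) (Kt G H 1 a) (Kt G H 1 a) ∧ MapsTo (D u) (Kt G H (-1) a) (Kt G H (-1) a)) ∧
    (∀ a, 0 < a → a < T → ∀ U : Set (LM M × ℂ), IsOpen U → Kt G H 1 a ∪ Kt G H (-1) a ⊆ U →
      ∃ ε > 0, ε < a ∧ ∀ x ∈ Xt H (a + ε), x ∉ U → D 1 x ∈ Xt H (a - ε))

variable [CompactSpace M]

/-- The geometric system. -/
noncomputable def mkGSys (H : Hol M) (G : GeoList M) (hD : Descent H G) : GSys (LM M × ℂ) where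
  X := XX H
  τ := deckC
  θ := revC
  rot p := rotC (1 / p : ℝ)
  ψ := iterC
  ι := G.ι
  fin := G.fin
  ℓ := G.ℓ
  ℓ_pos := G.ℓ_pos
  K1 := Kt G H 1
  K2 := Kt G H (-1)
  mono s t h q hq := ⟨hq.1.trans h, Xt_mono hq.1 h hq.2⟩
  compact s := by
    rcases le_or_gt 0 s with hs | hs
    · rw [XX_of_nonneg H hs]; exact isCompact_Xt hs
    · rw [XX_of_neg H hs]; exact isCompact_empty
  cont_τ _ := continuous_deckC.continuousOn
  cont_θ _ := continuous_revC.continuousOn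
  cont_rot _ _ := (continuous_rotC _).continuousOn
  τ_mem _ _ hq := ⟨hq.1, deckC_mem hq.2⟩
  θ_mem _ _ hq := ⟨hq.1, revC_mem hq.2⟩
  rot_mem _ _ _ hq := ⟨hq.1, rotC_mem hq.2 _⟩
  τ_τ := deckC_deckC
  θ_θ := revC_revC
  rot_pow _ hp := iterate_rotC_self hp
  τ_θ := deckC_revC
  τ_rot _ := deckC_rotC _
  θ_rot _ := revC_rotC' _
  τ_ne _ _ hq := deckC_ne hq.2
  ψ_cont _ hp _ _ _ := (continuous_iterC hp.pos).continuousOn
  ψ_inj p hp h2 s hs q hq q' hq' h :=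
    (bijOn_iterC (hp.odd_of_ne_two (by omega))).injOn hq.2 hq'.2 h
  ψ_image p hp h2 s hs := by
    rw [XX_of_nonneg H hs, XX_of_nonneg H (by positivity),
      image_iterC (hp.odd_of_ne_two (by omega))]
    rfl
  ψ_τ p hp h2 s _ x _ := (deckC_iterC (hp.odd_of_ne_two (by omega)) x).symm
  K1_compact _ ha := isCompact_Kt H (Or.inl rfl) ha
  K2_compact _ ha := isCompact_Kt H (Or.inr rfl) ha
  K1_sub _ ha _ hq := ⟨ha.le, Kt_subset H (Or.inl rfl) ha.le hq⟩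
  K2_sub _ ha _ hq := ⟨ha.le, Kt_subset H (Or.inr rfl) ha.le hq⟩
  K_disj _ ha := disjoint_Kt H ha
  K1_τ _ _ hq := deck_mem_Kt H hq
  K2_τ _ _ hq := deck_mem_Kt H hq
  K1_rot _ _ _ hq := rot_mem_Kt H hq
  K2_rot _ _ _ hq := rot_mem_Kt H hq
  K1_θ _ _ hq := rev_mem_Kt H hq
  K2_θ _ q hq := by
    have h := rev_mem_Kt H hq
    rw [neg_neg] at h
    exact h
  K_empty _ ha hc := ⟨Kt_eq_empty H (Or.inl rfl) ha hc, Kt_eq_empty H (Or.inr rfl) ha hc⟩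
  K_free p hp _ a ha hc x hx := by
    rcases hx with hx | hx
    · exact not_fixed_Kt H (Or.inl rfl) ha hp.pos hc hx
    · exact not_fixed_Kt H (Or.inr rfl) ha hp.pos hc hx
  descent p hp h2 T hT := by
    obtain ⟨D, h1, h3, h4, h5, h6, h7, h8, h9⟩ := hD p hp h2 T hT
    rw [XX_of_nonneg H hT.le]
    refine ⟨D, h1, h3, fun u hu s hs q hq => ⟨hq.1, h4 u hu s hq.1 hs hq.2⟩, h5, h6, h7, h8,
      fun a ha haT U hU hKU => ?_⟩
    obtain ⟨ε, hε, hεa, h⟩ := h9 a ha haT U hU hKU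
    exact ⟨ε, hε, fun x hx hxU => ⟨by linarith, h x hx.2 hxU⟩⟩

end Vale.Agent.P216.H609
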